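import Vale.Agent.P241.H733.Defs
import Vale.Agent.P251.G.LC

/-!
# P241, KEY: polar coordinates of `T_I^k`

`I` finite `G`-set, `T_I^k = (Fin k → Star I)`, `Sph I k` its unit sphere (sum of norms `1`).

* `tnrm z : [0, ∞)` : the norm of `z ∈ T_I^k`; `tscl r z` : scaling.
* `polFun : Sph I k × [0, ∞) → T_I^k`, `(e, r) ↦ r e` : continuous, proper, equivariant,
  surjective for `k ≥ 1`, injective for `r > 0`, `polFun (e, 0) = 0`.
* `sphOne : Sph I 1 ≃ I` (equivariant homeomorphism, `I` discrete).
-/

open OnePoint Filter Topology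
open Vale.Agent.P251.St Vale.Agent.P241.St Vale.Agent.P241.Final Vale.Agent.P241.H733

set_option linter.unusedSectionVars false

noncomputable section

namespace Vale.Agent.P241.H933

theorem isCompact_Iic_nnreal (r : NNReal) : IsCompact (Set.Iic r) := by
  have h : Set.Iic r = Set.Icc 0 r := by
    ext x
    simp
  rw [h]
  exact isCompact_Icc

variable {G : Type} [Group G] {I : Type} [Fintype I] [MulAction G I] {k : ℕ}

/-! ### Norm and scaling -/

/-- the norm on `T_I^k` -/
def tnrm (z : Fin k → H733.Star I) : NNReal :=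
  ⟨∑ i, (z i).nrm, Finset.sum_nonneg fun i _ => (z i).nrm_nonneg⟩

theorem coe_tnrm (z : Fin k → H733.Star I) : (tnrm z : ℝ) = ∑ i, (z i).nrm := rfl

theorem continuous_tnrm : Continuous (tnrm : (Fin k → H733.Star I) → NNReal) :=
  Continuous.subtype_mk Sph.continuous_norm _

theorem le_tnrm (z : Fin k → H733.Star I) (i : Fin k) (a : I) : z i a ≤ tnrm z :=
  calc z i a ≤ (z i).nrm :=
        Finset.single_le_sum (f := fun a => z i a) (fun b _ => (z i).nonneg b)
          (Finset.mem_univ a)
    _ ≤ ∑ j, (z j).nrm :=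
        Finset.single_le_sum (f := fun j => (z j).nrm) (fun j _ => (z j).nrm_nonneg)
          (Finset.mem_univ i)

theorem tnrm_smul (g : G) (z : Fin k → H733.Star I) : tnrm (g • z) = tnrm z :=
  NNReal.eq (by
    rw [coe_tnrm, coe_tnrm]
    exact Finset.sum_congr rfl fun i _ => H733.Star.nrm_smul g (z i))

theorem tnrm_eq_zero {z : Fin k → H733.Star I} : tnrm z = 0 ↔ z = 0 := by
  rw [← NNReal.coe_eq_zero, coe_tnrm,
    Finset.sum_eq_zero_iff_of_nonneg fun i _ => (z i).nrm_nonneg]
  simp only [Finset.mem_univ, true_implies, H733.Star.nrm_eq_zero_iff]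
  exact ⟨funext, congrFun⟩

@[simp] theorem tnrm_zero : tnrm (0 : Fin k → H733.Star I) = 0 := tnrm_eq_zero.2 rfl

theorem tnrm_val (e : Sph I k) : tnrm e.val = 1 := NNReal.eq e.sum_nrm

/-- scaling of `T_I^k` -/
def tscl (r : NNReal) (z : Fin k → H733.Star I) : Fin k → H733.Star I := fun i => H733.Star.scale r (z i)

theorem continuous_tscl : Continuous fun x : NNReal × (Fin k → H733.Star I) => tscl x.1 x.2 :=
  continuous_pi fun i => H733.Star.continuous_scale.comp
    (continuous_fst.prodMk ((continuous_apply i).comp continuous_snd))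

theorem nrm_scale (r : NNReal) (x : H733.Star I) : (H733.Star.scale r x).nrm = r * x.nrm := by
  simp only [H733.Star.nrm, H733.Star.scale_apply, Finset.mul_sum]

theorem tnrm_tscl (r : NNReal) (z : Fin k → H733.Star I) : tnrm (tscl r z) = r * tnrm z := by
  refine NNReal.eq ?_
  rw [NNReal.coe_mul, coe_tnrm, coe_tnrm, Finset.mul_sum]
  exact Finset.sum_congr rfl fun i _ => nrm_scale r (z i)

theorem tscl_smul (g : G) (r : NNReal) (z : Fin k → H733.Star I) : tscl r (g • z) = g • tscl r z := rfl

@[simp] theorem zero_tscl (z : Fin k → H733.Star I) : tscl 0 z = 0 :=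
  funext fun i => H733.Star.zero_scale (z i)

@[simp] theorem tscl_zero (r : NNReal) : tscl r (0 : Fin k → H733.Star I) = 0 :=
  funext fun _ => H733.Star.scale_zero r

@[simp] theorem one_tscl (z : Fin k → H733.Star I) : tscl 1 z = z :=
  funext fun i => H733.Star.one_scale (z i)

theorem tscl_tscl (r s : NNReal) (z : Fin k → H733.Star I) : tscl r (tscl s z) = tscl (r * s) z :=
  funext fun i => H733.Star.scale_scale r s (z i)

/-- the point of the sphere given by a vector of norm `1` -/
def mkSph (z : Fin k → H733.Star I) (hz : tnrm z = 1) : Sph I k := ⟨z, congrArg NNReal.toReal hz⟩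

@[simp] theorem val_mkSph (z : Fin k → H733.Star I) (hz : tnrm z = 1) : (mkSph z hz).val = z := rfl

theorem val_injective : Function.Injective (Sph.val : Sph I k → Fin k → H733.Star I) :=
  Subtype.val_injective

/-- `T_I^k` is closed in `(ℝ^I)^k`. -/
theorem isClosedEmbedding_star :
    IsClosedEmbedding fun (z : Fin k → H733.Star I) (i : Fin k) => (z i : I → ℝ) :=
  (isClosed_starPow I k).isClosedEmbedding_subtypeVal.comp
    (tpHomeo I k).symm.isClosedEmbedding

/-- sets of bounded norm are compact -/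
theorem isCompact_tnrm_le (r : NNReal) : IsCompact {z : Fin k → H733.Star I | tnrm z ≤ r} := by
  have h : IsCompact ((fun (z : Fin k → H733.Star I) (i : Fin k) => (z i : I → ℝ)) ⁻¹'
      (Set.pi Set.univ fun _ : Fin k => Set.pi Set.univ fun _ : I => Set.Icc (0 : ℝ) r)) :=
    isClosedEmbedding_star.isCompact_preimage
      (isCompact_univ_pi fun _ => isCompact_univ_pi fun _ => isCompact_Icc)
  refine h.of_isClosed_subset (isClosed_le continuous_tnrm continuous_const) ?_
  intro z hz i _ a _
  exact ⟨(z i).nonneg a, (le_tnrm z i a).trans (NNReal.coe_le_coe.2 hz)⟩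

/-- The norm is proper. -/
theorem tendsto_tnrm :
    Tendsto (tnrm : (Fin k → H733.Star I) → NNReal) (cocompact _) (cocompact _) := by
  refine (hasBasis_cocompact.tendsto_iff hasBasis_cocompact).2 fun K hK => ?_
  obtain ⟨R, hR⟩ := hK.bddAbove
  exact ⟨_, isCompact_tnrm_le R, fun z hz hzK => hz (hR hzK)⟩

/-! ### Polar coordinates -/

/-- Polar coordinates: `(e, r) ↦ r e`. -/
def polFun (x : Sph I k × NNReal) : Fin k → H733.Star I := tscl x.2 x.1.val

theorem continuous_polFun : Continuous (polFun : Sph I k × NNReal → Fin k → H733.Star I) :=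
  continuous_tscl.comp (continuous_snd.prodMk (Sph.continuous_val.comp continuous_fst))

@[simp] theorem tnrm_polFun (x : Sph I k × NNReal) : tnrm (polFun x) = x.2 := by
  rw [polFun, tnrm_tscl, tnrm_val, mul_one]

@[simp] theorem polFun_zero (e : Sph I k) : polFun (e, 0) = 0 := zero_tscl _

theorem polFun_smul (g : G) (e : Sph I k) (r : NNReal) :
    polFun (g • e, r) = g • polFun (e, r) := rfl

theorem polFun_eq {e e' : Sph I k} {r r' : NNReal} (h : polFun (e, r) = polFun (e', r')) :
    r = r' ∧ (r = 0 ∨ e = e') := by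
  have h1 : r = r' := by
    have := congrArg tnrm h
    rwa [tnrm_polFun, tnrm_polFun] at this
  subst h1
  refine ⟨rfl, or_iff_not_imp_left.2 fun hr => ?_⟩
  have h2 := congrArg (tscl r⁻¹) h
  simp only [polFun, tscl_tscl, inv_mul_cancel₀ hr, one_tscl] at h2
  exact val_injective h2

theorem exists_polFun {z : Fin k → H733.Star I} (hz : z ≠ 0) :
    ∃ e : Sph I k, polFun (e, tnrm z) = z := by
  have hn : tnrm z ≠ 0 := fun h => hz (tnrm_eq_zero.1 h)
  refine ⟨mkSph (tscl (tnrm z)⁻¹ z) ?_, ?_⟩
  · rw [tnrm_tscl, inv_mul_cancel₀ hn]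
  · rw [polFun, val_mkSph, tscl_tscl, mul_inv_cancel₀ hn, one_tscl]

theorem tendsto_polFun :
    Tendsto (polFun : Sph I k × NNReal → Fin k → H733.Star I) (cocompact _) (cocompact _) := by
  refine (hasBasis_cocompact.tendsto_iff hasBasis_cocompact).2 fun K hK => ?_
  obtain ⟨R, hR⟩ := hK.bddAbove_image (f := tnrm) continuous_tnrm.continuousOn
  refine ⟨Set.univ ×ˢ Set.Iic R, isCompact_univ.prod (isCompact_Iic_nnreal R), ?_⟩
  rintro x hx hxK
  refine hx ⟨trivial, ?_⟩
  have := hR ⟨_, hxK, rfl⟩
  rwa [tnrm_polFun] at this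

theorem nrm_ray (i : I) (t : NNReal) : (H733.Star.ray i t).nrm = t := by
  classical
  simp [H733.Star.nrm, H733.Star.ray_apply]

/-- the vertex `i` of the first join factor -/
def vertex (k : ℕ) (i : I) : Sph I (k + 1) :=
  mkSph (Fin.cons (H733.Star.ray i 1) fun _ => 0) (NNReal.eq (by
    rw [coe_tnrm, Fin.sum_univ_succ]
    simp [nrm_ray]))

instance nonempty_sph [h : Nonempty I] : Nonempty (Sph I (k + 1)) := h.map (vertex k)

theorem surjective_polFun [Nonempty I] :
    Function.Surjective (polFun : Sph I (k + 1) × NNReal → Fin (k + 1) → H733.Star I) := by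
  intro z
  by_cases hz : z = 0
  · obtain ⟨e⟩ := nonempty_sph (I := I) (k := k)
    exact ⟨(e, 0), by rw [polFun_zero, hz]⟩
  · obtain ⟨e, he⟩ := exists_polFun hz
    exact ⟨_, he⟩

end Vale.Agent.P241.H933
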