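import Vale.Agent.P241.H808.Null
import Vale.Agent.P241.H733.Defs
import Vale.Agent.P251.St.ToLC

/-!
# P241, KEY: the `b`-form from a factorisation

* `starPB G I k` : `T_I^k` with the cone point `0`.
* `BForm.comp_left`, `BForm.comp_right` : change of the map `v`.
* `bform_of_fact` : `Fact V pt (T_W^(k+1)) (T_W^k) X` gives `BForm X k v` for a member `v` of `V`.
-/

open CategoryTheory MonoidalCategory Filter Topology OnePoint
open Vale.Agent.P251.G Vale.Agent.P251.G.LC
open Vale.Agent.P251.St (Space Map toLC ofLC toHom ofHom)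
open Vale.Agent.P241.St Vale.Agent.P241.H808
open Vale.Agent.P241.Final (BForm tpZero starPow)
open Vale.Agent.P241.H733 (starP tpHomeo)

set_option linter.unusedSectionVars false

noncomputable section

namespace Vale.Agent.P241.H933

section PB

variable (G : Type) [Group G] (I : Type) [Finite I] [MulAction G I] (k : ℕ)

/-- `T_I^k` with the cone point -/
def starPB : PB G where
  B := starP G I k
  b := (0 : Fin k → H733.Star I)
  fix _ := rfl

end PB

/-! ### Pointed `G`-maps in the format of the statement -/

section Maps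

variable {G : Type} [Group G] {X Y Z : GSpace G}

/-- the `Map` of a pointed `G`-map -/
def pmMap (f : PM X Y) : Map X.und Y.und := ⟨f.at', continuous_app f.hom, f.at_infty⟩

theorem isGMap_pmMap (f : PM X Y) : IsGMap (X := X) (Y := Y) (pmMap f).toFun := f.at_smul

/-- a `G`-map in the format of the statement as a `PM` -/
def mapPM (f : Map X.und Y.und) (hf : IsGMap (X := X) (Y := Y) f.toFun) : PM X Y where
  hom := toHom f
  eqv g x := hf g x

@[simp] theorem at_mapPM (f : Map X.und Y.und) (hf : IsGMap (X := X) (Y := Y) f.toFun)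
    (x : OnePoint X.carrier) : (mapPM f hf).at' x = f.toFun x := rfl

/-- the composition of two maps -/
def mapComp {P Q R : Space} (f : Map P Q) (g : Map Q R) : Map P R :=
  ⟨g.toFun ∘ f.toFun, g.cont.comp f.cont, (congrArg g.toFun f.map_infty).trans g.map_infty⟩

end Maps

/-! ### The `b`-form -/

variable {W : Type} [Group W] [Finite W] {X : GSpace W} {k : ℕ}

/-- a map of spaces, between trivial actions -/
def trMap (W : Type) [Group W] {P Q : Space} (v : Map P Q) :
    PM (GSpace.triv W P) (GSpace.triv W Q) :=
  trM W (A := toLC P) (C := toLC Q) (toHom v)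

theorem at_trMap {P Q : Space} (v : Map P Q) (y : P.Pt) : (trMap W v).at' y = v.toFun y := rfl

theorem bform_iff {P Q : Space} (v : Map P Q) : BForm X k v ↔
    ∃ b : PM ((X.prod (Final.tp W W (k + 1))).prod (GSpace.triv W P))
        ((X.prod (Final.tp W W k)).prod (GSpace.triv W Q)),
      ∀ (x : X.carrier) (y : OnePoint (GSpace.triv W P).carrier),
        b.at' (sm (OnePoint.some (pr x (tpZero W W (k + 1)))) y) =
          sm (OnePoint.some (pr x (tpZero W W k))) ((trMap W v).at' y) := by
  constructor
  · rintro ⟨b, hb, h⟩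
    exact ⟨mapPM b hb, h⟩
  · rintro ⟨b, h⟩
    exact ⟨pmMap b, isGMap_pmMap b, h⟩

theorem BForm.comp_left {P' P Q : Space} {v : Map P Q} (h : BForm X k v) (u : Map P' P) :
    BForm X k (mapComp u v) := by
  obtain ⟨b, hb⟩ := (bform_iff v).1 h
  refine (bform_iff _).2 ⟨((PM.id _).prod (trMap W u)).comp b, fun x y => ?_⟩
  rw [PM.at_comp, PM.at_prod, PM.at_id, hb]
  rfl

theorem BForm.comp_right {P Q Q' : Space} {v : Map P Q} (h : BForm X k v) (u : Map Q Q') :
    BForm X k (mapComp v u) := by
  obtain ⟨b, hb⟩ := (bform_iff v).1 h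
  refine (bform_iff _).2 ⟨b.comp ((PM.id _).prod (trMap W u)), fun x y => ?_⟩
  rw [PM.at_comp, hb, PM.at_prod, PM.at_id]
  rfl

/-- **The `b`-form from a factorisation over the point.** -/
theorem bform_of_fact {V : TClass}
    (h : Fact V (pt W).B (starPB W W (k + 1)) (starPB W W k) X) :
    ∃ (A C : LC) (v : A ⟶ C), V.mem v ∧ BForm X k (ofHom (X := ofLC A) (Y := ofLC C) v) := by
  obtain ⟨A, C, v, hv, ψ, hψ⟩ := h
  let s₁ : PM ((X.prod (Final.tp W W (k + 1))).prod (GSpace.triv W (ofLC A)))
      ((pt W).B.prod ((starPB W W (k + 1)).B.prod (X.prod (tr W A)))) :=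
    PM.emb (fun z => pr (X := (pt W).B) () (pr (X := (starPB W W (k + 1)).B)
        (tpHomeo W (k + 1) (p2 (p1 z))) (pr (p1 (p1 z)) (Y := tr W A) (p2 z))))
      (fun w => pr (pr (p1 (p2 (p2 w))) (Y := Final.tp W W (k + 1))
        ((tpHomeo W (k + 1)).symm (p1 (p2 w)))) (Y := GSpace.triv W (ofLC A)) (p2 (p2 (p2 w))))
      (by
        refine continuous_pr continuous_const (continuous_pr ?_ ?_)
        · exact (tpHomeo W (k + 1)).continuous.comp (continuous_p2.comp continuous_p1)
        · exact continuous_pr (continuous_p1.comp continuous_p1) continuous_p2)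
      (by
        refine continuous_pr (continuous_pr ?_ ?_) ?_
        · exact continuous_p1.comp (continuous_p2.comp continuous_p2)
        · exact (tpHomeo W (k + 1)).symm.continuous.comp (continuous_p1.comp continuous_p2)
        · exact continuous_p2.comp (continuous_p2.comp continuous_p2))
      (fun _ => rfl) (fun _ _ => rfl)
  let s₂ : PM ((starPB W W k).B.prod (X.prod (tr W C)))
      ((X.prod (Final.tp W W k)).prod (GSpace.triv W (ofLC C))) :=
    PM.emb (fun w => pr (pr (p1 (p2 w)) (Y := Final.tp W W k)
        ((tpHomeo W k).symm (p1 w))) (Y := GSpace.triv W (ofLC C)) (p2 (p2 w)))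
      (fun z => pr (X := (starPB W W k).B)
        (tpHomeo W k (p2 (p1 z))) (pr (p1 (p1 z)) (Y := tr W C) (p2 z)))
      (by
        refine continuous_pr (continuous_pr ?_ ?_) ?_
        · exact continuous_p1.comp continuous_p2
        · exact (tpHomeo W k).symm.continuous.comp continuous_p1
        · exact continuous_p2.comp continuous_p2)
      (by
        refine continuous_pr ?_ ?_
        · exact (tpHomeo W k).continuous.comp (continuous_p2.comp continuous_p1)
        · exact continuous_pr (continuous_p1.comp continuous_p1) continuous_p2)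
      (fun _ => rfl) (fun _ _ => rfl)
  refine ⟨A, C, v, hv, (bform_iff _).2 ⟨s₁.comp (ψ.comp s₂), fun x y => ?_⟩⟩
  rw [PM.at_comp, PM.at_comp]
  induction y using OnePoint.rec with
  | infty => simp only [sm_infty_right, PM.at_infty]
  | coe y =>
    have h1 := hψ () x y
    change s₂.at' (ψ.at' (OnePoint.some (pr (X := (pt W).B) () (pr (X := (starPB W W (k + 1)).B)
          (starPB W W (k + 1)).b (pr x (Y := tr W A) y))))) = _
    rw [h1]
    change s₂.at' (sm _ (sm _ (vat v (OnePoint.some y)))) = sm _ (vat v (OnePoint.some y))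
    generalize vat v (OnePoint.some y) = c
    induction c using OnePoint.rec with
    | infty => simp only [sm_infty_right, PM.at_infty]
    | coe c => rfl

end Vale.Agent.P241.H933
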