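import Vale.Agent.P241.H40.ClaimT
import Vale.Agent.P241.H808.Null2
import Vale.Agent.P241.H933.Polar
import Vale.Agent.P241.H933.BFormOf

/-!
# P241, KEY: from nullity over `E_(k+1)` to the `b`-form

* `polarSph`, `polarEE` : polar coordinates on `T_I^k`.
* `fact_of_null` : nullity over `E_(k+1)` is a factorisation through `T_W^(k+1)`.
* `bform_of_null` : the `b`-form.
-/

open CategoryTheory MonoidalCategory Filter OnePoint Topology Vale.Agent.P251.St
  Vale.Agent.P251.G Vale.Agent.P251.G.LC Vale.Agent.P241.St Vale.Agent.P241.H733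
  Vale.Agent.P241.H808

noncomputable section

namespace Vale.Agent.P241.H933

variable {G : Type} [Group G]

/-- polar coordinates on `T_I^k` -/
def polarSph (I : Type) [Fintype I] [MulAction G I] (k : ℕ) :
    Polar (H40.starPB G I k) (sphP G I k) where
  f s r := polFun (show Sph I k from s, r)
  cont := continuous_polFun
  proper := tendsto_polFun
  eqv _ _ _ := rfl
  zero _ := polFun_zero _
  inj h := polFun_eq h
  surj d := by
    by_cases h : (show Fin k → H733.Star I from d) = 0
    · exact Or.inl h
    · obtain ⟨e, he⟩ := exists_polFun h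
      exact Or.inr ⟨e, _, he⟩

/-- polar coordinates on `T_W^m`, with unit sphere `EE W m` -/
def polarEE (W : Type) [Group W] [Finite W] (m : ℕ) : Polar (H40.starPB W W m) (H40.EE W m) :=
  letI := Fintype.ofFinite W
  polarSph W m

variable {W : Type} [Group W] [Finite W] {V : TClass} {X : GSpace W} {k : ℕ}

/-- **Nullity over the unit sphere gives a factorisation.** -/
theorem fact_of_null {m : ℕ} {β : PB W} (h : N V (H40.EE W m) β X) :
    Fact V (pt W).B (H40.starPB W W m) β X := by
  have : CompactSpace (pt W).B.carrier := inferInstanceAs (CompactSpace Unit)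
  have : CompactSpace ((pt W).B.prod (H40.EE W m)).carrier :=
    inferInstanceAs (CompactSpace ((pt W).B.carrier × (H40.EE W m).carrier))
  exact Fact.polar (polarEE W m) (Fact.mapE (E' := (pt W).B.prod (H40.EE W m)) (E := H40.EE W m)
    p2 continuous_p2 (fun _ _ => rfl) h)

/-- **The `b`-form from nullity over `E_(k+1)`.** -/
theorem bform_of_null (h : N V (H40.EE W (k + 1)) (H40.starPB W W k) X) :
    ∃ (A C : LC) (v : A ⟶ C), V.mem v ∧
      Final.BForm X k (ofHom (X := ofLC A) (Y := ofLC C) v) :=
  bform_of_fact (fact_of_null h)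

end Vale.Agent.P241.H933
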