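import Vale.Agent.P251.H.StabInput
import Mathlib.CategoryTheory.Action.Monoidal
import Mathlib.CategoryTheory.Action.Limits
import Mathlib.CategoryTheory.Monoidal.Closed.FunctorCategory.Groupoid
import Mathlib.CategoryTheory.Limits.Preserves.Shapes.Products

/-!
# P241: objects with an action of a group satisfy `StabInput`

For `M` with `[StabInput M]` and a group `G`, the category `Action M G` satisfies `StabInput`
(spaces with the trivial action).
-/

open CategoryTheory MonoidalCategory Limits

namespace Vale.Agent.P241.H933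

open Vale.Agent.P251.G Vale.Agent.P251.G.LC Vale.Agent.P251.H

universe v u

set_option linter.unusedSectionVars false

variable {M : Type u} [Category.{v} M] {G : Type} [Group G]

/-- objects with the trivial action -/
@[simps] def triv (M : Type u) [Category.{v} M] (G : Type) [Group G] : M ⥤ Action M G where
  obj X := { V := X, ρ := 1 }
  map f :=
    { hom := f
      comm := fun g => by
        change 𝟙 _ ≫ f = f ≫ 𝟙 _
        rw [Category.id_comp, Category.comp_id] }

instance : (triv M G).Full where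
  map_surjective f := ⟨f.hom, rfl⟩

instance : (triv M G).Faithful where
  map_injective h := congrArg Action.Hom.hom h

section

variable [MonoidalCategory M]

/-- the trivial action functor is monoidal -/
instance : (triv M G).Monoidal :=
  Functor.CoreMonoidal.toMonoidal
    { εIso := Action.mkIso (Iso.refl _) (fun g => by
        change 𝟙 _ ≫ 𝟙 _ = 𝟙 _ ≫ 𝟙 _; rfl)
      μIso := fun X Y => Action.mkIso (Iso.refl _) (fun g => by
        change (𝟙 _ ⊗ₘ 𝟙 _) ≫ 𝟙 _ = 𝟙 _ ≫ 𝟙 _
        simp)
      μIso_hom_natural_left := fun {X Y} f Z => by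
        ext
        change f ▷ Z ≫ 𝟙 _ = 𝟙 _ ≫ f ▷ Z
        simp
      μIso_hom_natural_right := fun {X Y} Z f => by
        ext
        change Z ◁ f ≫ 𝟙 _ = 𝟙 _ ≫ Z ◁ f
        simp
      associativity := fun X Y Z => by
        ext
        simp only [Action.comp_hom, Action.whiskerRight_hom, Action.whiskerLeft_hom,
          Action.associator_hom_hom]
        change (𝟙 (X ⊗ Y)) ▷ Z ≫ 𝟙 _ ≫ (α_ X Y Z).hom = (α_ X Y Z).hom ≫ X ◁ (𝟙 (Y ⊗ Z)) ≫ 𝟙 _
        simp
      left_unitality := fun X => by
        ext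
        simp only [Action.comp_hom, Action.whiskerRight_hom, Action.leftUnitor_hom_hom]
        change (λ_ X).hom = (𝟙 (𝟙_ M)) ▷ X ≫ 𝟙 _ ≫ (λ_ X).hom
        simp
      right_unitality := fun X => by
        ext
        simp only [Action.comp_hom, Action.whiskerLeft_hom, Action.rightUnitor_hom_hom]
        change (ρ_ X).hom = X ◁ (𝟙 (𝟙_ M)) ≫ 𝟙 _ ≫ (ρ_ X).hom
        simp }

@[simp] theorem triv_ε_hom : (Functor.LaxMonoidal.ε (triv M G)).hom = 𝟙 (𝟙_ M) := rfl
@[simp] theorem triv_μ_hom (X Y : M) :
    (Functor.LaxMonoidal.μ (triv M G) X Y).hom = 𝟙 (X ⊗ Y) := rfl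
@[simp] theorem triv_η_hom : (Functor.OplaxMonoidal.η (triv M G)).hom = 𝟙 (𝟙_ M) := rfl
@[simp] theorem triv_δ_hom (X Y : M) :
    (Functor.OplaxMonoidal.δ (triv M G) X Y).hom = 𝟙 (X ⊗ Y) := rfl

variable [SymmetricCategory M]

instance : (triv M G).Braided where
  braided X Y := by
    ext
    change (𝟙 (X ⊗ Y)) ≫ (β_ X Y).hom = (β_ X Y).hom ≫ 𝟙 _
    simp

noncomputable instance closedAction [MonoidalClosed M] : MonoidalClosed (Action M G) :=
  MonoidalClosed.ofEquiv (Action.functorCategoryEquivalence M G).functor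
    (Action.functorCategoryEquivalence M G).toAdjunction

end

/-! ### The coproducts -/

section fin

variable [HasCoproducts.{0} M] [HasZeroMorphisms M]

/-- the comparison of coproducts -/
noncomputable def sigmaV {ι : Type} (X : ι → Action M G) :
    (∐ X).V ≅ ∐ (fun i => (X i).V) :=
  PreservesCoproduct.iso (Action.forget M G) X

theorem ι_sigmaV {ι : Type} (X : ι → Action M G) (i : ι) :
    Sigma.ι (fun i => (X i).V) i ≫ (sigmaV X).inv = (Sigma.ι X i).hom := by
  rw [sigmaV, PreservesCoproduct.inv_hom]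
  exact ι_comp_sigmaComparison (Action.forget M G) X i

theorem finFactor_action (K : Action M G) (h : FinFactor K.V) : FinFactor K := by
  classical
  intro ι X f
  obtain ⟨s, g, hg⟩ := h (fun i => (X i).V) (f.hom ≫ (sigmaV X).hom)
  let ret : ∐ X ⟶ ∐ (fun i : s => X i) :=
    Sigma.desc (fun i => if h : i ∈ s then Sigma.ι (fun i : s => X i) ⟨i, h⟩ else 0)
  let sub : ∐ (fun i : s => X i) ⟶ ∐ X := Sigma.desc (fun i : s => Sigma.ι X i)
  have hsr : sub ≫ ret = 𝟙 _ := by
    apply Sigma.hom_ext
    rintro ⟨i, hi⟩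
    simp only [sub, ret, Sigma.ι_desc_assoc, Sigma.ι_desc, dif_pos hi, Category.comp_id]
  have e : g ≫ (sigmaV (fun i : s => X i)).inv ≫ sub.hom = f.hom := by
    have h1 : (sigmaV (fun i : s => X i)).inv ≫ sub.hom =
        Sigma.desc (fun i : s => Sigma.ι (fun i => (X i).V) i) ≫ (sigmaV X).inv := by
      apply Sigma.hom_ext
      intro i
      rw [← Category.assoc, ι_sigmaV, Sigma.ι_desc_assoc, ι_sigmaV, ← Action.comp_hom]
      congr 1
      exact Sigma.ι_desc _ _
    rw [h1, ← Category.assoc, hg, Category.assoc, Iso.hom_inv_id, Category.comp_id]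
  refine ⟨s, f ≫ ret, ?_⟩
  apply Action.Hom.ext
  change ((f ≫ ret) ≫ sub).hom = f.hom
  rw [Action.comp_hom, Action.comp_hom]
  nth_rw 1 [← e]
  have e2 : sub.hom ≫ ret.hom = 𝟙 _ := by rw [← Action.comp_hom, hsr]; rfl
  rw [Category.assoc, Category.assoc, Category.assoc, reassoc_of% e2, e]

end fin

/-! ### The instance -/

section inst

variable [MonoidalCategory M] [SymmetricCategory M]
    [MonoidalClosed M] [HasZeroMorphisms M] [HasColimitsOfSize.{0, 0} M] [StabInput M]

theorem isZero_action (X : Action M G) (h : IsZero X.V) : IsZero X :=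
  (IsZero.iff_id_eq_zero X).2 (Action.Hom.ext (h.eq_of_src _ _))

theorem tpow_V (X : Action M G) (n : ℕ) : (tpow X n).V = tpow X.V n := by
  induction n with
  | zero => rfl
  | succ n ih =>
    change X.V ⊗ (tpow X n).V = X.V ⊗ tpow X.V n
    rw [ih]

/-- the trivial action on spaces -/
noncomputable abbrev jT (M : Type u) [Category.{v} M] (G : Type) [Group G]
    [MonoidalCategory M] [SymmetricCategory M]
    [MonoidalClosed M] [HasZeroMorphisms M] [HasColimitsOfSize.{0, 0} M] [StabInput M] :
    LC ⥤ Action M G := StabInput.j ⋙ triv M G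

theorem jincl_hom (t : unitInterval) (X : Action M G) :
    (jincl (jT M G) t X).hom = jincl (StabInput.j : LC ⥤ M) t X.V := by
  rw [jincl, jincl, Action.comp_hom, Action.rightUnitor_inv_hom, Action.whiskerLeft_hom,
    Action.comp_hom]
  congr 3
  change 𝟙 _ ≫ Functor.LaxMonoidal.ε (StabInput.j : LC ⥤ M) = _
  simp

theorem jev_hom (L : M) (lam : L ⊗ (StabInput.j : LC ⥤ M).obj RR ⟶ 𝟙_ M)
    (lam' : (triv M G).obj L ⊗ (jT M G).obj RR ⟶ 𝟙_ (Action M G)) (h : lam'.hom = lam) (K : LC) :
    (jev (jT M G) ((triv M G).obj L) lam' K).hom = jev (StabInput.j : LC ⥤ M) L lam K := by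
  rw [jev, jev]
  simp only [Action.comp_hom, Action.whiskerLeft_hom, Action.whiskerRight_hom,
    Action.associator_inv_hom, Action.leftUnitor_hom_hom, h]
  congr 1
  change L ◁ (Functor.OplaxMonoidal.δ (StabInput.j : LC ⥤ M) RR K ≫ 𝟙 _) = _
  simp

instance hasColimitsAction : HasColimitsOfSize.{0, 0} (Action M G) where
  has_colimits_of_shape _ _ := inferInstance

variable (M G) in
/-- the structure map with trivial action -/
noncomputable def lamT :
    (triv M G).obj (StabInput.L : M) ⊗ (jT M G).obj RR ⟶ 𝟙_ (Action M G) where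
  hom := StabInput.lam
  comm g := by
    change (𝟙 (StabInput.L : M) ⊗ₘ 𝟙 _) ≫ StabInput.lam = StabInput.lam ≫ 𝟙 _
    rw [id_tensorHom_id, Category.id_comp, Category.comp_id]

theorem evT_hom (X : Action M G) (K : LC) (x : X ⟶ (jT M G).obj (RR ⊗ K)) :
    (((triv M G).obj (StabInput.L : M)) ◁ x ≫
      jev (jT M G) ((triv M G).obj StabInput.L) (lamT M G) K).hom =
    (StabInput.L : M) ◁ x.hom ≫ jev (StabInput.j : LC ⥤ M) StabInput.L StabInput.lam K := by
  rw [Action.comp_hom, Action.whiskerLeft_hom, jev_hom _ _ _ rfl]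
  rfl

theorem ev_bij_action (X : Action M G) (K : LC) :
    Function.Bijective (fun x : X ⟶ (jT M G).obj (RR ⊗ K) =>
      ((triv M G).obj (StabInput.L : M)) ◁ x ≫
        jev (jT M G) ((triv M G).obj StabInput.L) (lamT M G) K) := by
  have hb := StabInput.ev_bij (M := M) X.V K
  constructor
  · intro x y hxy
    apply Action.Hom.ext
    apply hb.1
    change (StabInput.L : M) ◁ x.hom ≫ _ = (StabInput.L : M) ◁ y.hom ≫ _
    rw [← evT_hom X K x, ← evT_hom X K y]
    exact congrArg Action.Hom.hom hxy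
  · intro y
    obtain ⟨x, hx⟩ := hb.2 y.hom
    have hx' : (StabInput.L : M) ◁ x ≫ jev (StabInput.j : LC ⥤ M) StabInput.L StabInput.lam K
        = y.hom := hx
    refine ⟨⟨x, fun g => ?_⟩, ?_⟩
    · apply hb.1
      change (StabInput.L : M) ◁ (X.ρ g ≫ x) ≫ _ = (StabInput.L : M) ◁ (x ≫ 𝟙 _) ≫ _
      rw [Category.comp_id, MonoidalCategory.whiskerLeft_comp, Category.assoc, hx']
      have := y.comm g
      change (𝟙 _ ⊗ₘ X.ρ g) ≫ y.hom = y.hom ≫ 𝟙 _ at this
      rw [Category.comp_id, id_tensorHom] at this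
      exact this
    · apply Action.Hom.ext
      refine (evT_hom X K _).trans ?_
      exact hx'

theorem rot_action : JHomotopic (jT M G)
    (lamT M G ▷ ((triv M G).obj (StabInput.L : M) ⊗ (jT M G).obj RR) ≫
      (λ_ ((triv M G).obj (StabInput.L : M) ⊗ (jT M G).obj RR)).hom)
    (((triv M G).obj (StabInput.L : M) ⊗ (jT M G).obj RR) ◁ lamT M G ≫
      (ρ_ ((triv M G).obj (StabInput.L : M) ⊗ (jT M G).obj RR)).hom) := by
  obtain ⟨H, h0, h1⟩ := StabInput.rot (M := M)
  refine ⟨⟨H, fun g => ?_⟩, ?_, ?_⟩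
  · change (((𝟙 (StabInput.L : M) ⊗ₘ 𝟙 _) ⊗ₘ (𝟙 (StabInput.L : M) ⊗ₘ 𝟙 _)) ⊗ₘ 𝟙 _) ≫ H =
      H ≫ (𝟙 (StabInput.L : M) ⊗ₘ 𝟙 _)
    simp only [id_tensorHom_id, Category.id_comp, Category.comp_id]
  · apply Action.Hom.ext
    rw [Action.comp_hom, jincl_hom]
    refine h0.trans ?_
    simp only [Action.comp_hom, Action.whiskerRight_hom, Action.leftUnitor_hom_hom]
    rfl
  · apply Action.Hom.ext
    rw [Action.comp_hom, jincl_hom]
    refine h1.trans ?_
    simp only [Action.comp_hom, Action.whiskerLeft_hom, Action.rightUnitor_hom_hom]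
    rfl

theorem fin_action (n : ℕ) (K : LC) :
    FinFactor (tpow ((triv M G).obj (StabInput.L : M)) n ⊗ (jT M G).obj K) := by
  apply finFactor_action
  have h : FinFactor (tpow (StabInput.L : M) n ⊗ (StabInput.j : LC ⥤ M).obj K) := by
    intro ι X f
    exact StabInput.fin n K X f
  have e : (tpow ((triv M G).obj (StabInput.L : M)) n ⊗ (jT M G).obj K).V =
      tpow (StabInput.L : M) n ⊗ (StabInput.j : LC ⥤ M).obj K := by
    change (tpow ((triv M G).obj (StabInput.L : M)) n).V ⊗ _ = _
    rw [tpow_V]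
    rfl
  rw [e]
  exact @h

/-- **Objects with an action of a group satisfy `StabInput`.** -/
noncomputable instance stabInputAction : StabInput (Action M G) where
  j := jT M G
  braided := inferInstance
  full := inferInstance
  faithful := inferInstance
  isZero_empty := isZero_action _ StabInput.isZero_empty
  pushout i f g k hi h := by
    apply IsPushout.of_map (Action.forget M G)
    · rw [← Functor.map_comp, ← Functor.map_comp, h.w]
    · exact StabInput.pushout i f g k hi h
  L := (triv M G).obj StabInput.L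
  lam := lamT M G
  ev_bij := ev_bij_action
  rot := rot_action
  fin := fin_action

end inst

end Vale.Agent.P241.H933
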