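import Vale.Agent.P241.H40.ClaimT

/-!
# P241: comparison of the star models of a group and of a subgroup

`compE : CompE`, `compS : CompS` (the hypotheses of `claimT`).
-/

open CategoryTheory MonoidalCategory OnePoint Topology Vale.Agent.P251.St Vale.Agent.P251.G
  Vale.Agent.P251.G.LC Vale.Agent.P241.St Vale.Agent.P241.H733 Vale.Agent.P241.H808
  Vale.Agent.P241.H40

set_option linter.style.haveILetI false

noncomputable section

namespace Vale.Agent.P241.H933

/-- A group is a free left module over a subgroup. -/
theorem exists_comp_map {W : Type} [Group W] (B : Subgroup W) :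
    ∃ φ : W → B, ∀ (b : B) (w : W), φ (b * w) = b * φ w := by
  have hq : ∀ w : W, w * (Quotient.out (Quotient.mk (QuotientGroup.rightRel B) w))⁻¹ ∈ B :=
    fun w => QuotientGroup.rightRel_apply.1 (Quotient.eq.1 (Quotient.out_eq _))
  refine ⟨fun w => ⟨_, hq w⟩, fun b w => Subtype.ext ?_⟩
  have h : Quotient.mk (QuotientGroup.rightRel B) (b * w) =
      Quotient.mk (QuotientGroup.rightRel B) w := by
    refine Quotient.sound (QuotientGroup.rightRel_apply.2 ?_)
    rw [mul_inv_rev, mul_inv_cancel_left]
    exact B.inv_mem b.2
  change (b * w : W) * (Quotient.out _)⁻¹ = b * (w * (Quotient.out _)⁻¹)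
  rw [h, mul_assoc]

theorem star_nrm_map {I J : Type} [Fintype I] [Fintype J] (φ : I → J) (x : H733.Star I) :
    (H733.Star.map φ x).nrm = x.nrm := by
  classical
  simp only [H733.Star.nrm, H733.Star.map_apply]
  rw [Finset.sum_comm]
  simp

theorem compE : CompE := by
  intro W _ _ B m
  letI := Fintype.ofFinite W
  letI := Fintype.ofFinite B
  obtain ⟨φ, hφ⟩ := exists_comp_map B
  let f : Sph W m → Sph B m := fun z => ⟨fun i => H733.Star.map φ (z.val i), by
    change ∑ i, (H733.Star.map φ (z.val i)).nrm = 1
    simp only [star_nrm_map]
    exact z.sum_nrm⟩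
  refine ⟨f, ?_, fun b x => ?_⟩
  · exact Continuous.subtype_mk (continuous_pi fun i => (H733.Star.continuous_map φ).comp
      ((continuous_apply i).comp Sph.continuous_val)) _
  · refine Subtype.ext (funext fun i => ?_)
    change H733.Star.map φ (((b : W) • (x : Sph W m)).val i) = b • H733.Star.map φ ((x : Sph W m).val i)
    exact H733.Star.map_smul φ hφ b ((x : Sph W m).val i)

theorem compS : CompS := by
  intro W _ _ B k
  letI := Fintype.ofFinite B
  refine Le.ofClosed (a := starPB B B k) (b := resPB B.subtype (starPB W W k))
    (fun z : Fin k → H733.Star B =>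
      (fun i => H733.Star.map (Subtype.val : B → W) (z i) : Fin k → H733.Star W)) ?_ ?_ ?_
  · refine Function.LeftInverse.isClosedEmbedding (f := fun (z : Fin k → H733.Star W) =>
      (fun i => H733.Star.comap (Subtype.val : B → W) Subtype.val_injective (z i) :
        Fin k → H733.Star B)) ?_ ?_ ?_
    · intro z
      exact funext fun i => H733.Star.comap_map _ _ _
    · exact continuous_pi fun i => (H733.Star.continuous_comap _ _).comp (continuous_apply i)
    · exact continuous_pi fun i => (H733.Star.continuous_map _).comp (continuous_apply i)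
  · intro b z
    refine funext fun i => ?_
    exact H733.Star.map_smul (G := B) (Subtype.val : B → W) (fun _ _ => rfl) b (z i)
  · exact funext fun i => H733.Star.map_zero _

end Vale.Agent.P241.H933
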