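import Vale.Agent.P241.H933.ActStab
import Vale.Agent.P251.H.SpaceFun

/-!
# P241: the functor from spaces with an action of `W` to the naive stable category

* `JA : Action LC W ⥤ Action M W`, the functor induced by `J M : LC ⥤ M`.
* `WF W`: the category of spaces with an action of `W` whose underlying space is a finite cell
  space.
* `SFW : WF W ⥤ TT (piModel GG) L₀` (for a class `GG` of test objects of `Action M W` such that all
  `JA X` are flat): a braided monoidal functor, homotopy invariant, mapping cones go to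
  distinguished triangles.
-/

open CategoryTheory MonoidalCategory Limits ZeroObject Pretriangulated
open Functor.LaxMonoidal Functor.OplaxMonoidal

namespace Vale.Agent.P241.H933

open Vale.Agent.P251 Vale.Agent.P251.G Vale.Agent.P251.G.LC Vale.Agent.P251.H
open Vale.Agent.P251.H.StabInput Vale.Agent.P251.H.LP

universe v' u' v u

set_option linter.unusedSectionVars false

section spaces

variable {C : Type u} [Category.{v} C] {W : Type} [Group W] [MonoidalCategory C]
  [SymmetricCategory C] {D : Type u'} [Category.{v'} D] [MonoidalCategory D] [SymmetricCategory D]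
  (F : C ⥤ D)

instance mapActionBraided [F.Braided] : (F.mapAction W).Braided where
  braided X Y := by
    ext
    simp only [Action.comp_hom, Functor.mapAction_μ_hom]
    exact Functor.LaxBraided.braided X.V Y.V

/-- the trivial action and `mapAction` commute -/
def trivIso (K : C) : (F.mapAction W).obj ((triv C W).obj K) ≅ (triv D W).obj (F.obj K) :=
  Action.mkIso (Iso.refl _) (fun g => by
    change F.map (𝟙 K) ≫ 𝟙 _ = 𝟙 _ ≫ 𝟙 _
    rw [CategoryTheory.Functor.map_id])

@[simp] theorem trivIso_hom_hom (K : C) : (trivIso (W := W) F K).hom.hom = 𝟙 (F.obj K) := rfl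
@[simp] theorem trivIso_inv_hom (K : C) : (trivIso (W := W) F K).inv.hom = 𝟙 (F.obj K) := rfl

@[reassoc]
theorem trivIso_nat {K K' : C} (f : K ⟶ K') :
    (F.mapAction W).map ((triv C W).map f) ≫ (trivIso F K').hom =
      (trivIso F K).hom ≫ (triv D W).map (F.map f) := by
  ext
  change F.map f ≫ 𝟙 _ = 𝟙 _ ≫ F.map f
  rw [Category.comp_id, Category.id_comp]

end spaces

section WF

variable (W : Type) [Group W]

/-- spaces with an action of `W` whose underlying space is a finite cell space -/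
abbrev WFP : ObjectProperty (Action LC W) := fun X => LC.FC X.V

instance : (WFP W).IsMonoidal where
  prop_unit := FC.unit
  prop_tensor _ _ h₁ h₂ := FC.tensor h₁ h₂

/-- The category of spaces with an action of `W` whose underlying space is a finite cell space. -/
abbrev WF : Type 1 := (WFP W).FullSubcategory

variable {W}

/-- a space with the trivial action -/
def trF (K : I.FCat) : WF W := ⟨(triv LC W).obj K.obj, K.property⟩

variable (W) in
/-- the line with the trivial action -/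
abbrev RRW : WF W := trF I.RRF

/-- the cylinder inclusion -/
def inclW (t : unitInterval) (X : Action LC W) : X ⟶ X ⊗ (triv LC W).obj II :=
  ⟨incl t X.V, fun g => by
    change X.ρ g ≫ incl t X.V = incl t X.V ≫ (X.ρ g ⊗ₘ 𝟙 _)
    rw [tensorHom_id, incl_naturality]⟩

/-- `W`-homotopic maps -/
def HomotopicW {X Y : Action LC W} (f g : X ⟶ Y) : Prop :=
  ∃ H : X ⊗ (triv LC W).obj II ⟶ Y, inclW 0 X ≫ H = f ∧ inclW 1 X ≫ H = g

end WF

section functor

variable {M : Type u} [Category.{v} M] {W : Type} [Group W] [MonoidalCategory M]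
    [SymmetricCategory M] [MonoidalClosed M] [HasZeroMorphisms M] [HasColimitsOfSize.{0, 0} M]
    [StabInput M]

variable (M W) in
/-- the functor from spaces with an action of `W` to `Action M W` -/
abbrev JA : Action LC W ⥤ Action M W := (J M).mapAction W

/-- the comparison of the two functors on spaces with trivial action -/
def kap (K : LC) : (JA M W).obj ((triv LC W).obj K) ≅ (J (Action M W)).obj K :=
  trivIso (J M) K

@[reassoc]
theorem kap_nat {K K' : LC} (f : K ⟶ K') :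
    (JA M W).map ((triv LC W).map f) ≫ (kap (M := M) K').hom =
      (kap K).hom ≫ (J (Action M W)).map f := trivIso_nat (J M) f

theorem kap_hom_hom (K : LC) : (kap (M := M) (W := W) K).hom.hom = 𝟙 ((J M).obj K) := rfl

theorem inc_hom (t : unitInterval) (X : Action M W) :
    (inc t X : X ⟶ X ⊗ I (Action M W)).hom = inc t X.V := jincl_hom t X

theorem JA_inclW (t : unitInterval) (X : Action LC W) :
    (JA M W).map (inclW t X) ≫ δ (JA M W) X ((triv LC W).obj II) ≫
      (JA M W).obj X ◁ (kap II).hom = inc t ((JA M W).obj X) := by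
  ext
  rw [inc_hom, Action.comp_hom, Action.comp_hom, Action.whiskerLeft_hom, kap_hom_hom,
    Functor.mapAction_δ_hom]
  change (J M).map (incl t X.V) ≫ δ (J M) X.V II ≫ (J M).obj X.V ◁ 𝟙 _ = inc t ((J M).obj X.V)
  rw [MonoidalCategory.whiskerLeft_id, Category.comp_id, map_incl_δ]

/-- `W`-homotopic maps go to homotopic maps. -/
theorem mHtpy_JA {X Y : Action LC W} {f g : X ⟶ Y} (h : HomotopicW f g) :
    MHtpy ((JA M W).map f) ((JA M W).map g) := by
  obtain ⟨H, h0, h1⟩ := h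
  have key : ∀ t : unitInterval, inc t ((JA M W).obj X) ≫
      ((JA M W).obj X ◁ (kap (M := M) II).inv ≫ μ (JA M W) X ((triv LC W).obj II) ≫
        (JA M W).map H) = (JA M W).map (inclW t X ≫ H) := by
    intro t
    rw [← JA_inclW]
    simp only [Category.assoc]
    rw [← MonoidalCategory.whiskerLeft_comp_assoc, Iso.hom_inv_id,
      MonoidalCategory.whiskerLeft_id, Category.id_comp, Functor.Monoidal.δ_μ_assoc,
      Functor.map_comp]
  exact ⟨_, (key 0).trans (by rw [h0]), (key 1).trans (by rw [h1])⟩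

/-- `JA` reflects homotopies. -/
theorem homotopicW_of_mHtpy {X Y : Action LC W} {f g : X ⟶ Y}
    (h : MHtpy ((JA M W).map f) ((JA M W).map g)) : HomotopicW f g := by
  obtain ⟨H, h0, h1⟩ := h
  obtain ⟨K, hK⟩ := (JA M W).map_surjective (δ (JA M W) X ((triv LC W).obj II) ≫
      (JA M W).obj X ◁ (kap II).hom ≫ H)
  have key : ∀ t : unitInterval, (JA M W).map (inclW t X ≫ K) = inc t ((JA M W).obj X) ≫ H := by
    intro t
    rw [Functor.map_comp, hK, ← JA_inclW]
    simp only [Category.assoc]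
  exact ⟨K, (JA M W).map_injective ((key 0).trans h0), (JA M W).map_injective ((key 1).trans h1)⟩

variable (V : MorphismProperty (Action M W)) [hV : GoodW V]
  (hfl : ∀ X : WF W, Flat V ((JA M W).obj X.obj))

/-- the functor to flat objects -/
def JWF : WF W ⥤ FlatCat V := (Flat V).lift ((WFP W).ι ⋙ JA M W) hfl

instance : (JWF V hfl).Monoidal := liftMonoidal (Flat V) ((WFP W).ι ⋙ JA M W) _

instance : (JWF V hfl).Braided where
  braided X Y := ObjectProperty.hom_ext _
    (Functor.Braided.braided (F := (WFP W).ι ⋙ JA M W) X Y)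

/-- the comparison on finite cell spaces with the trivial action -/
noncomputable def kapF (K : I.FCat) : (JWF V hfl).obj (trF K) ≅ (JF V).obj K :=
  (Flat V).isoMk (kap K.obj)

theorem JWF_μ_hom (X Y : WF W) : (μ (JWF V hfl) X Y).hom = μ (JA M W) X.obj Y.obj := by
  change μ (JA M W) X.obj Y.obj ≫ (JA M W).map (𝟙 _) = _
  exact (congrArg (μ (JA M W) X.obj Y.obj ≫ ·) ((JA M W).map_id _)).trans (Category.comp_id _)

theorem JWF_δ_hom (X Y : WF W) : (δ (JWF V hfl) X Y).hom = δ (JA M W) X.obj Y.obj := by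
  change (JA M W).map (𝟙 _) ≫ δ (JA M W) X.obj Y.obj = _
  exact (congrArg (· ≫ δ (JA M W) X.obj Y.obj) ((JA M W).map_id _)).trans (Category.id_comp _)

theorem isZero_JWF {X : WF W} (hX : IsEmpty X.obj.V) : IsZero ((JWF V hfl).obj X) := by
  rw [IsZero.iff_id_eq_zero]
  apply ObjectProperty.hom_ext
  apply Action.Hom.ext
  change 𝟙 ((J M).obj X.obj.V) = 0
  rw [← CategoryTheory.Functor.map_id, eq_zero_of_empty (𝟙 X.obj.V), J_map_zero]

/-- `J (X × ℝ) ⟶ J X ⊗ S` -/
noncomputable def JWFδ (X : WF W) :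
    (JWF V hfl).obj (X ⊗ RRW W) ⟶ (JWF V hfl).obj X ⊗ (flatCone V).S :=
  δ (JWF V hfl) X (RRW W) ≫ (JWF V hfl).obj X ◁ (kapF V hfl I.RRF).hom

/-- the inclusion `x ↦ (x, 0)` of `X` in `X × [0, ∞)` -/
noncomputable def inclHW (X : Action LC W) : X ⟶ X ⊗ (triv LC W).obj HH :=
  (ρ_ X).inv ≫ X ◁ (ε (triv LC W) ≫ (triv LC W).map (point (X := HH) 0))

theorem inclHW_hom (X : Action LC W) : (inclHW X).hom = inclH X.V := by
  rw [inclHW, Action.comp_hom, Action.whiskerLeft_hom, Action.rightUnitor_inv_hom,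
    Action.comp_hom]
  change (ρ_ X.V).inv ≫ X.V ◁ (𝟙 _ ≫ point (X := HH) 0) = _
  rw [Category.id_comp]
  rfl

theorem JWFδ_hom (X : WF W) : (JWFδ V hfl X).hom.hom = δ (J M) X.obj.V RR := by
  rw [JWFδ]
  refine (congrArg (fun z => z ≫ _) (congrArg Action.Hom.hom (JWF_δ_hom V hfl X (RRW W)))).trans ?_
  change δ (J M) X.obj.V RR ≫ (J M).obj X.obj.V ◁ 𝟙 ((J M).obj RR) = _
  rw [MonoidalCategory.whiskerLeft_id, Category.comp_id]

/-- the map from the tensor product with the half line -/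
noncomputable def JWk {X C : WF W} (k : X.obj ⊗ (triv LC W).obj HH ⟶ C.obj) :
    (JWF V hfl).obj X ⊗ (flatCone V).CI ⟶ (JWF V hfl).obj C :=
  ObjectProperty.homMk ((JA M W).obj X.obj ◁ (kap HH).inv ≫
    μ (JA M W) X.obj ((triv LC W).obj HH) ≫ (JA M W).map k)

theorem JWk_hom {X C : WF W} (k : X.obj ⊗ (triv LC W).obj HH ⟶ C.obj) :
    (JWk V hfl k).hom.hom = μ (J M) X.obj.V HH ≫ (J M).map k.hom := by
  change (J M).obj X.obj.V ◁ 𝟙 _ ≫ μ (J M) X.obj.V HH ≫ (J M).map k.hom = _
  rw [MonoidalCategory.whiskerLeft_id, Category.id_comp]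

/-- the pushout square of a mapping cone, in the category of flat objects -/
theorem isPushout_JWF {X Y C : WF W} (f : X ⟶ Y) (j : Y ⟶ C)
    (k : X.obj ⊗ (triv LC W).obj HH ⟶ C.obj)
    (hsq : IsPushout (inclH X.obj.V) f.hom.hom k.hom j.hom.hom) :
    IsPushout ((JWF V hfl).map f) ((flatCone V).coneIn ((JWF V hfl).obj X)) ((JWF V hfl).map j)
      (JWk V hfl k) := by
  refine isPushout_flat_of_hom ?_
  have h := StabInput.pushout (M := M) _ _ _ _ (injective_coneBase X.obj.V) hsq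
  have h' : IsPushout ((J M).map f.hom.hom)
      (((ρ_ ((J M).obj X.obj.V)).inv ≫ (J M).obj X.obj.V ◁ (ε (J M) ≫ (J M).map
        (point (X := HH) 0)))) ((J M).map j.hom.hom) (μ (J M) X.obj.V HH ≫ (J M).map k.hom) := by
    refine h.flip.of_iso (Iso.refl _) (Iso.refl _) (Functor.Monoidal.μIso (J M) X.obj.V HH).symm
      (Iso.refl _) ?_ ?_ ?_ ?_
    · exact (Category.comp_id _).trans (Category.id_comp _).symm
    · refine Eq.trans ?_ (Category.id_comp _).symm
      change (J M).map (inclH X.obj.V) ≫ δ (J M) X.obj.V HH =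
        (ρ_ ((J M).obj X.obj.V)).inv ≫ (J M).obj X.obj.V ◁
          (ε (J M) ≫ (J M).map (point (X := HH) 0))
      rw [← incH_μ, Category.assoc, Functor.Monoidal.μ_δ, Category.comp_id]
    · exact (Category.comp_id _).trans (Category.id_comp _).symm
    · change (J M).map k.hom ≫ 𝟙 _ = δ (J M) X.obj.V HH ≫ μ (J M) X.obj.V HH ≫ (J M).map k.hom
      rw [Functor.Monoidal.δ_μ_assoc, Category.comp_id]
      rfl
  have e1 : ((flatCone V).coneIn ((JWF V hfl).obj X)).hom.hom =
      (ρ_ ((J M).obj X.obj.V)).inv ≫ (J M).obj X.obj.V ◁ (ε (J M) ≫ (J M).map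
        (point (X := HH) 0)) := by
    change ((ρ_ ((JA M W).obj X.obj)).inv ≫ (JA M W).obj X.obj ◁
      (ε (J (Action M W)) ≫ (J (Action M W)).map (point (X := HH) 0))).hom = _
    rw [Action.comp_hom, Action.whiskerLeft_hom, Action.rightUnitor_inv_hom, Action.comp_hom]
    congr 3
    exact Category.id_comp _
  apply IsPushout.of_map (Action.forget M W)
  · apply Action.Hom.ext
    change (J M).map f.hom.hom ≫ (J M).map j.hom.hom =
      ((flatCone V).coneIn ((JWF V hfl).obj X)).hom.hom ≫ (JWk V hfl k).hom.hom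
    rw [e1, JWk_hom]
    exact h'.w
  · change IsPushout ((J M).map f.hom.hom) ((flatCone V).coneIn ((JWF V hfl).obj X)).hom.hom
      ((J M).map j.hom.hom) (JWk V hfl k).hom.hom
    rw [e1, JWk_hom]
    exact h'

theorem conn_aux1 {X Y C : LC} (j : Y ⟶ C) (d : C ⟶ X ⊗ RR) (hj : j ≫ d = 0) :
    (J M).map j ≫ (J M).map d ≫ δ (J M) X RR = 0 := by
  rw [← Functor.map_comp_assoc, hj, J_map_zero, zero_comp]

theorem conn_aux2 {X C : LC} (k : X ⊗ HH ⟶ C) (d : C ⟶ X ⊗ RR) (hk : k ≫ d = X ◁ openPart) :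
    (μ (J M) X HH ≫ (J M).map k) ≫ (J M).map d ≫ δ (J M) X RR =
      (J M).obj X ◁ (J M).map openPart := by
  rw [Category.assoc, ← Functor.map_comp_assoc, hk, ← μ_natural_right_assoc,
    Functor.Monoidal.μ_δ, Category.comp_id]

theorem conn_JWF {X Y C : WF W} (j : Y ⟶ C) (k : X.obj ⊗ (triv LC W).obj HH ⟶ C.obj)
    (d : C ⟶ X ⊗ RRW W) (hj : j.hom ≫ d.hom = 0)
    (hk : k ≫ d.hom = X.obj ◁ (triv LC W).map openPart) :
    (JWF V hfl).map j ≫ (JWF V hfl).map d ≫ JWFδ V hfl X = 0 ∧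
    JWk V hfl k ≫ (JWF V hfl).map d ≫ JWFδ V hfl X =
      (JWF V hfl).obj X ◁ (flatCone V).s := by
  constructor
  · apply ObjectProperty.hom_ext
    apply Action.Hom.ext
    refine (congrArg (fun z => (J M).map j.hom.hom ≫ (J M).map d.hom.hom ≫ z)
      (JWFδ_hom V hfl X)).trans ?_
    exact conn_aux1 (X := X.obj.V) j.hom.hom d.hom.hom (congrArg Action.Hom.hom hj)
  · apply ObjectProperty.hom_ext
    apply Action.Hom.ext
    refine (congrArg₂ (fun y z => y ≫ (J M).map d.hom.hom ≫ z) (JWk_hom V hfl k)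
      (JWFδ_hom V hfl X)).trans ?_
    exact conn_aux2 (X := X.obj.V) k.hom d.hom.hom (congrArg Action.Hom.hom hk)

end functor

section sf

variable {M : Type u} [Category.{v} M] {W : Type} [Group W] [MonoidalCategory M]
    [SymmetricCategory M] [MonoidalClosed M] [HasZeroMorphisms M] [HasColimitsOfSize.{0, 0} M]
    [StabInput M]

variable (GG : ObjectProperty (Action M W)) [IsTest GG] {D₀ : Type u'} [Category.{v'} D₀]
  (L₀ : FlatCat (piW GG) ⥤ D₀) [L₀.IsLocalization (CofCat.W (C := FlatCat (piW GG)))]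
  (hfl : ∀ X : WF W, Flat (piW GG) ((JA M W).obj X.obj))

/-- The suspension spectrum functor on spaces with an action of `W`. -/
noncomputable def SFW : WF W ⥤ TT (piModel GG) L₀ := JWF (piW GG) hfl ⋙ TT.L (piModel GG) L₀

noncomputable instance : (SFW GG L₀ hfl).Braided :=
  inferInstanceAs (JWF (piW GG) hfl ⋙ TT.L (piModel GG) L₀).Braided

theorem SFW_μ (X Y : WF W) : μ (SFW GG L₀ hfl) X Y =
    μ (TT.L (piModel GG) L₀) ((JWF (piW GG) hfl).obj X) ((JWF (piW GG) hfl).obj Y) ≫
      (TT.L (piModel GG) L₀).map (μ (JWF (piW GG) hfl) X Y) := rfl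

theorem SFW_δ (X Y : WF W) : δ (SFW GG L₀ hfl) X Y =
    (TT.L (piModel GG) L₀).map (δ (JWF (piW GG) hfl) X Y) ≫
      δ (TT.L (piModel GG) L₀) ((JWF (piW GG) hfl).obj X) ((JWF (piW GG) hfl).obj Y) := rfl

/-- the line goes to the shift of the unit -/
noncomputable def lineSFW : (SFW GG L₀ hfl).obj (RRW W) ≅ (𝟙_ (TT (piModel GG) L₀))⟦(1 : ℤ)⟧ :=
  (TT.L (piModel GG) L₀).mapIso (kapF (piW GG) hfl I.RRF) ≪≫
    (λ_ ((TT.L (piModel GG) L₀).obj (piModel GG).m.S)).symm ≪≫
      (λ_ ((TT.inv (piModel GG) L₀).pow 1)).symm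

theorem line_auxW {T : Type*} [Category T] [MonoidalCategory T] (A : T) {S' S K : T}
    (y : S' ⟶ S) (x : S ⟶ K) :
    A ◁ (y ≫ x ≫ (λ_ K).inv) ≫ A ◁ (λ_ K).hom = A ◁ y ≫ A ◁ x := by
  rw [← MonoidalCategory.whiskerLeft_comp, Category.assoc, Category.assoc, Iso.inv_hom_id,
    Category.comp_id, MonoidalCategory.whiskerLeft_comp]

theorem lineSFW_e (A : TT (piModel GG) L₀) :
    A ◁ (lineSFW GG L₀ hfl).hom ≫ (T.TensorTriangulated.e A).hom =
      A ◁ (TT.L (piModel GG) L₀).map (kapF (piW GG) hfl I.RRF).hom ≫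
        A ◁ (λ_ ((TT.L (piModel GG) L₀).obj (piModel GG).m.S)).inv :=
  line_auxW A ((TT.L (piModel GG) L₀).map (kapF (piW GG) hfl I.RRF).hom)
    (K := (TT.inv (piModel GG) L₀).pow 1)
    (λ_ ((TT.L (piModel GG) L₀).obj (piModel GG).m.S)).inv

theorem third_auxW {C D : Type*} [Category C] [HasZeroObject C] [HasZeroMorphisms C]
    [HasBinaryCoproducts C] [CofCat C] [MonoidalCategory C] [SymmetricCategory C]
    [TensorCofCat C] [Category D] [MonoidalCategory D] (L : C ⥤ D) [L.Monoidal]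
    (m : ConeModel C) {A P Q S' : C} (d : P ⟶ Q)
    (x : Q ⟶ A ⊗ S') (y : S' ⟶ m.S) {K : D} (κ : L.obj m.S ≅ K) :
    L.map d ≫ (L.map x ≫ δ L A S') ≫ L.obj A ◁ L.map y ≫ L.obj A ◁ κ.hom =
      L.map (d ≫ (x ≫ A ◁ y) ≫ (m.suspIso A).hom) ≫ (m.shiftIso L κ).hom.app A := by
  rw [← third_aux L m d (x ≫ A ◁ y) κ, L.map_comp x, Category.assoc, Category.assoc,
    Category.assoc, δ_natural_right_assoc]

theorem third_SFW {X C : WF W} (d : C ⟶ X ⊗ RRW W) :
    (SFW GG L₀ hfl).map d ≫ (Functor.Monoidal.μIso (SFW GG L₀ hfl) X (RRW W)).inv ≫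
        ((SFW GG L₀ hfl).obj X ◁ (lineSFW GG L₀ hfl).hom) ≫
          (T.TensorTriangulated.e ((SFW GG L₀ hfl).obj X)).hom =
      (TT.L (piModel GG) L₀).map ((JWF (piW GG) hfl).map d ≫ JWFδ (piW GG) hfl X ≫
        ((flatCone (piW GG)).suspIso ((JWF (piW GG) hfl).obj X)).hom) ≫
          (TT.τ (piModel GG) L₀).hom.app ((JWF (piW GG) hfl).obj X) := by
  refine (congrArg (fun g => (SFW GG L₀ hfl).map d ≫
    (Functor.Monoidal.μIso (SFW GG L₀ hfl) X (RRW W)).inv ≫ g)
      (lineSFW_e GG L₀ hfl _)).trans ?_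
  exact third_auxW (TT.L (piModel GG) L₀) (flatCone (piW GG)) ((JWF (piW GG) hfl).map d)
    (δ (JWF (piW GG) hfl) X (RRW W)) (kapF (piW GG) hfl I.RRF).hom
    (K := (TT.inv (piModel GG) L₀).pow 1)
    (λ_ ((TT.L (piModel GG) L₀).obj (piModel GG).m.S)).symm

/-- **Mapping cones go to distinguished triangles.** -/
theorem cone_SFW {X Y C : WF W} (f : X ⟶ Y) (j : Y ⟶ C)
    (k : X.obj ⊗ (triv LC W).obj HH ⟶ C.obj)
    (hsq : IsPushout (inclH X.obj.V) f.hom.hom k.hom j.hom.hom) (d : C ⟶ X ⊗ RRW W)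
    (hj : j.hom ≫ d.hom = 0) (hk : k ≫ d.hom = X.obj ◁ (triv LC W).map openPart) :
    Triangle.mk ((SFW GG L₀ hfl).map f) ((SFW GG L₀ hfl).map j)
      ((SFW GG L₀ hfl).map d ≫ (Functor.Monoidal.μIso (SFW GG L₀ hfl) X (RRW W)).inv ≫
        ((SFW GG L₀ hfl).obj X ◁ (lineSFW GG L₀ hfl).hom) ≫
          (T.TensorTriangulated.e ((SFW GG L₀ hfl).obj X)).hom) ∈
      distTriang (TT (piModel GG) L₀) := by
  obtain ⟨e1, e2⟩ := conn_JWF (piW GG) hfl j k d hj hk
  have e3 : (flatCone (piW GG)).coneIn ((JWF (piW GG) hfl).obj X) ≫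
      ((flatCone (piW GG)).coneIso ((JWF (piW GG) hfl).obj X)).hom =
        𝟙 _ ≫ CofCat.cin ((JWF (piW GG) hfl).obj X) :=
    ((flatCone (piW GG)).coneIn_coneIso _).trans (Category.id_comp _).symm
  have hP := (isPushout_JWF (piW GG) hfl f j k hsq).of_iso (Iso.refl _) (Iso.refl _)
    ((flatCone (piW GG)).coneIso ((JWF (piW GG) hfl).obj X))
    (Iso.refl _) (by simp) e3 (f' := (JWF (piW GG) hfl).map f)
    (inl' := (JWF (piW GG) hfl).map j)
    (inr' := ((flatCone (piW GG)).coneIso ((JWF (piW GG) hfl).obj X)).inv ≫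
      JWk (piW GG) hfl k)
    (by simp) (by simp)
  have h := dist_cone (TT.τ (piModel GG) L₀) ((JWF (piW GG) hfl).map f) hP
    (d := (JWF (piW GG) hfl).map d ≫ JWFδ (piW GG) hfl X ≫
      ((flatCone (piW GG)).suspIso ((JWF (piW GG) hfl).obj X)).hom)
    (by rw [reassoc_of% e1, zero_comp])
    (by rw [Category.assoc, reassoc_of% e2, ConeModel.s_suspIso, Iso.inv_hom_id_assoc])
  have e4 := third_SFW GG L₀ hfl d
  exact e4 ▸ h

theorem map_eq_SFW {X Y : WF W} (f g : X ⟶ Y) (h : HomotopicW f.hom g.hom) :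
    (SFW GG L₀ hfl).map f = (SFW GG L₀ hfl).map g :=
  CofCat.map_eq_of_Htpy (TT.L (piModel GG) L₀) (htpy_flat (mHtpy_JA h))

theorem isZero_SFW {X : WF W} (hX : IsEmpty X.obj.V) : IsZero ((SFW GG L₀ hfl).obj X) :=
  CofCat.isZero_map (TT.L (piModel GG) L₀) (isZero_JWF (piW GG) hfl hX)

end sf

end Vale.Agent.P241.H933
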